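import Crest.Agent.X212.Rinv39.Cj
import Crest.Agent.X212.Ulc97.Geo

-- ▼ part X212/Rinv39/Core
section

/-! Row 212, RAD-RINV (helper39): unique solvability for all small weights. -/

set_option autoImplicit false
set_option linter.unusedSectionVars false
noncomputable section
open scoped Manifold ContDiff Topology InnerProductSpace
open MeasureTheory Set Function Filter Real

namespace Crest.Agent.X212.Rinv39
open An An.Pre Sob92 Ell97 Nk89

variable {E : Type} [NormedAddCommGroup E] [NormedSpace ℝ E] [FiniteDimensional ℝ E]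
  [MeasurableSpace E] [BorelSpace E]
  {HM : Type} [TopologicalSpace HM] {I : ModelWithCorners ℝ E HM} [I.Boundaryless]
  {M : Type} [TopologicalSpace M] [ChartedSpace HM M] [IsManifold I ∞ M]
  [MeasurableSpace M] {ι : Type} [Fintype ι]
  {V W : Type} [NormedAddCommGroup V] [InnerProductSpace ℝ V] [FiniteDimensional ℝ V]
  [NormedAddCommGroup W] [InnerProductSpace ℝ W] [FiniteDimensional ℝ W]
  [T2Space M] [BorelSpace M] [SecondCountableTopology M]
  {F : Fr I M ι} {A : Op M ι V W} {C C' : ℕ → ℝ} {φ : M → ℝ} {k n : ℕ}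

variable (F) in
/-- the columns -/
def col {q : M → W →L[ℝ] W} (ϖ : Fin k → Sec I q) : (Fin k → ℝ) →L[ℝ] F.H 0 q :=
  ∑ i, (ContinuousLinearMap.proj i : (Fin k → ℝ) →L[ℝ] ℝ).smulRight (F.toH 0 q (ϖ i))

theorem col_eq {q : M → W →L[ℝ] W} (ϖ : Fin k → Sec I q) (a : Fin k → ℝ) :
    col F ϖ a = F.toH 0 q (∑ i, a i • ϖ i) := by
  simp [col]

theorem sec_sum {q : M → W →L[ℝ] W} (ϖ : Fin k → Sec I q) (a : Fin k → ℝ) (x : M) :
    (∑ i, a i • ϖ i : Sec I q).1 x = ∑ i, a i • (ϖ i).1 x := by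
  simp

variable (F) in
/-- the operator with the columns -/
def TT {p : M → V →L[ℝ] V} {q : M → W →L[ℝ] W} (ϖ : Fin k → Sec I q) (T : F.H 1 p →L[ℝ] F.H 0 q) :
    F.H 1 p × (Fin k → ℝ) →L[ℝ] F.H 0 q := T.coprod (-col F ϖ)

theorem TT_apply {p : M → V →L[ℝ] V} {q : M → W →L[ℝ] W} (ϖ : Fin k → Sec I q)
    (T : F.H 1 p →L[ℝ] F.H 0 q) (z : F.H 1 p × (Fin k → ℝ)) : TT F ϖ T z = T z.1 - col F ϖ z.2 := by
  simp [TT, sub_eq_add_neg]

theorem norm_TT {p : M → V →L[ℝ] V} {q : M → W →L[ℝ] W} (ϖ : Fin k → Sec I q)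
    (T T' : F.H 1 p →L[ℝ] F.H 0 q) : ‖TT F ϖ T' - TT F ϖ T‖ ≤ ‖T' - T‖ :=
  ContinuousLinearMap.opNorm_le_bound _ (norm_nonneg _) fun z => by
    rw [_root_.sub_apply, TT_apply, TT_apply, sub_sub_sub_cancel_right]
    exact ((T' - T).le_opNorm z.1).trans
      (mul_le_mul_of_nonneg_left (norm_fst_le z) (norm_nonneg _))

variable (F k) in
/-- the rows -/
def rw0 (p : M → V →L[ℝ] V) :
    (Sec I p × (Fin k → ℝ)) →ₗ[ℝ] F.H 1 p × (Fin k → ℝ) →L[ℝ] ℝ where
  toFun s := innerSL ℝ (F.toH 0 p s.1) ∘L F.incl 1 0 p ∘L ContinuousLinearMap.fst ℝ _ _ +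
    (∑ i, s.2 i • ContinuousLinearMap.proj i) ∘L ContinuousLinearMap.snd ℝ _ _
  map_add' s t := ContinuousLinearMap.ext fun z => by
    simp [add_mul, Finset.sum_add_distrib]; ring
  map_smul' r s := ContinuousLinearMap.ext fun z => by
    simp [Finset.mul_sum, mul_assoc]

theorem rw0_apply {p : M → V →L[ℝ] V} (s : Sec I p × (Fin k → ℝ)) (z : F.H 1 p × (Fin k → ℝ)) :
    rw0 F k p s z = ⟪F.incl 1 0 p z.1, F.toH 0 p s.1⟫_ℝ + ∑ i, s.2 i * z.2 i := by
  simp [rw0, real_inner_comm]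

theorem rw0_sep {p : M → V →L[ℝ] V} (z : F.H 1 p × (Fin k → ℝ)) (h : ∀ s, rw0 F k p s z = 0) :
    z = 0 := by
  refine Prod.ext (incl_inj F zero_le_one p (H_ext fun u => ?_)) (funext fun i => ?_)
  · simpa [rw0_apply] using h (u, 0)
  · simpa [rw0_apply, Pi.single_apply] using h (0, Pi.single i 1)

variable (F A) in
/-- the equation with the columns and the rows -/
structure Sol (ϖ : Fin k → Sec I A.q) (θ : Fin n → Sec I A.p × (Fin k → ℝ)) (f : M → W)
    (u : M → V) (a : Fin k → ℝ) : Prop where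
  sm : Sm I u
  pr : ∀ x, A.p x (u x) = u x
  eq : ∀ x, A.app F u x - ∑ i, a i • (ϖ i).1 x = f x
  row : ∀ j, F.ip 0 u (θ j).1.1 + ∑ i, (θ j).2 i * a i = 0

variable {ϖ : Fin k → Sec I A.q} {θ : Fin n → Sec I A.p × (Fin k → ℝ)}

theorem Sol.sub {f f' : M → W} {u u' : M → V} {a a' : Fin k → ℝ} (h : Sol F A ϖ θ f u a)
    (h' : Sol F A ϖ θ f' u' a') : Sol F A ϖ θ (f - f') (u - u') (a - a') := by
  refine ⟨h.sm.sub h'.sm, fun x => by simp [h.pr, h'.pr], fun x => ?_, fun j => ?_⟩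
  · have e := app_add (F := F) (A := A) (h.sm.sub h'.sm) h'.sm x
    rw [show (fun x => u x - u' x) + u' = u from funext fun x => by simp] at e
    rw [Pi.sub_apply, ← h.eq x, ← h'.eq x, e]
    simp only [Pi.sub_apply, sub_smul, Finset.sum_sub_distrib]
    have : u - u' = fun x => u x - u' x := rfl
    rw [this]; abel
  · have i := fun {w : M → V} (hw : Sm I w) => F.integrable_inner (θ j).1.2.1.continuous
      (θ j).1.2.2.1 hw.continuous
    have e : F.ip 0 (u - u') (θ j).1.1 = F.ip 0 u (θ j).1.1 - F.ip 0 u' (θ j).1.1 := by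
      simp only [F.ip_comm 0 _ (θ j).1.1]
      simp only [Pre.ip, Pi.sub_apply, inner_sub_right]
      exact integral_sub (i h.sm) (i h'.sm)
    have e1 := h.row j
    have e2 := h'.row j
    simp only [e, Pi.sub_apply, mul_sub, Finset.sum_sub_distrib]
    linarith

theorem ip_ew {p : M → V →L[ℝ] V} (s : Sec I p) {t : ℝ} (h : ∀ x, φ x ≠ t → s.1 x = 0) (u : M → V) :
    F.ip 0 (ew φ u) s.1 = exp t * F.ip 0 u s.1 := by
  simp only [Pre.ip, ← integral_const_mul]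
  refine integral_congr_ae (Eventually.of_forall fun x => ?_)
  by_cases e : φ x = t
  · simp [ew, e, inner_smul_left]
  · simp [h x e]

/-- the conjugated problem -/
theorem Sol.cj {f : M → W} {u : M → V} {a : Fin k → ℝ} (hφ : Wg F φ) {t : ℝ} (hu : Sm I u)
    (ht : ∀ x, φ x ≠ t → (∀ i, (ϖ i).1 x = 0) ∧ ∀ j, (θ j).1.1 x = 0) :
    Sol F (cj F A φ) ϖ θ (ew φ f) (ew φ u) (exp t • a) ↔ Sol F A ϖ θ f u a := by
  have h1 : ∀ x, ∑ i, (exp t • a) i • (ϖ i).1 x = exp (φ x) • ∑ i, a i • (ϖ i).1 x := fun x => by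
    by_cases e : φ x = t
    · simp [e, Finset.smul_sum, smul_smul]
    · simp [(ht x e).1]
  have h2 : ∀ j, F.ip 0 (ew φ u) (θ j).1.1 + ∑ i, (θ j).2 i * (exp t • a) i =
      exp t * (F.ip 0 u (θ j).1.1 + ∑ i, (θ j).2 i * a i) := fun j => by
    rw [ip_ew (θ j).1 fun x e => (ht x e).2 j, mul_add, Finset.mul_sum]
    simp [mul_left_comm]
  have h3 : ∀ x, (Rinv39.cj F A φ).app F (ew φ u) x - ∑ i, (exp t • a) i • (ϖ i).1 x =
      exp (φ x) • (A.app F u x - ∑ i, a i • (ϖ i).1 x) := fun x => by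
    rw [h1, hφ.app_ew hu, smul_sub]
  constructor
  · intro h
    refine ⟨hu, fun x => ?_, fun x => ?_, fun j => ?_⟩
    · exact smul_right_injective V (exp_ne_zero (φ x)) ((map_smul (A.p x) _ _).symm.trans (h.pr x))
    · exact smul_right_injective W (exp_ne_zero (φ x)) ((h3 x).symm.trans (h.eq x))
    · exact (mul_eq_zero.1 ((h2 j).symm.trans (h.row j))).resolve_left (exp_ne_zero t)
  · intro h
    refine ⟨hφ.sm_ew hu, fun x => (map_smul (A.p x) _ _).trans (by rw [h.pr]), fun x => ?_,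
      fun j => (h2 j).trans (by rw [h.row, mul_zero])⟩
    exact (h3 x).trans (by rw [h.eq])

variable (F) in
/-- the operator with columns and rows -/
def BB {p : M → V →L[ℝ] V} {q : M → W →L[ℝ] W} (ϖ : Fin k → Sec I q)
    (θ : Fin n → Sec I p × (Fin k → ℝ)) (T : F.H 1 p →L[ℝ] F.H 0 q) :
    F.H 1 p × (Fin k → ℝ) →L[ℝ] F.H 0 q × (Fin n → ℝ) :=
  (TT F ϖ T).prod (ContinuousLinearMap.pi fun j => rw0 F k p (θ j))

theorem norm_BB {p : M → V →L[ℝ] V} {q : M → W →L[ℝ] W} (ϖ : Fin k → Sec I q)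
    (θ : Fin n → Sec I p × (Fin k → ℝ)) (T T' : F.H 1 p →L[ℝ] F.H 0 q) :
    ‖BB F ϖ θ T' - BB F ϖ θ T‖ ≤ ‖T' - T‖ :=
  ContinuousLinearMap.opNorm_le_bound _ (norm_nonneg _) fun z => by
    have : (BB F ϖ θ T' - BB F ϖ θ T) z = ((TT F ϖ T' - TT F ϖ T) z, 0) := by simp [BB]
    rw [this, Prod.norm_mk, norm_zero, max_eq_left (norm_nonneg _)]
    exact ((TT F ϖ T' - TT F ϖ T).le_opNorm z).trans
      (mul_le_mul_of_nonneg_right (norm_TT ϖ T T') (norm_nonneg _))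

theorem BB_ex (hF : F.Tame C) (hA : A.Good F C') (hc : A.CliffL F) {K : ℝ}
    (hs : Surjective (BB F ϖ θ (A.H F 0))) (hK : ∀ z, ‖z‖ ≤ K * ‖BB F ϖ θ (A.H F 0) z‖) {f : M → W}
    (hf : Sm I f) (hL : ∀ j, FL F.toPre j f) (hq : ∀ y, A.q y (f y) = f y) :
    ∃ u a, Sol F A ϖ θ f u a ∧ F.Cb u ∧ (∀ j, FL F.toPre j u) ∧ F.nrm 0 u ≤ K * F.nrm 0 f ∧
      ‖a‖ ≤ K * F.nrm 0 f := by
  have := FiniteDimensional.complete ℝ V
  have := FiniteDimensional.complete ℝ W
  obtain ⟨y, hy⟩ := exists_Is (Exh.of_tame hF) hf (hL 0) hq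
  obtain ⟨z, hz⟩ := hs (y, 0)
  have h1 := hK z
  rw [hz, Prod.norm_mk y, norm_zero, max_eq_left (norm_nonneg _), hy.norm hf] at h1
  have h2 : A.H F 0 z.1 = y + F.toH 0 A.q (∑ i, z.2 i • ϖ i) := by
    rw [← col_eq, ← sub_eq_iff_eq_add, ← TT_apply]; exact congrArg Prod.fst hz
  set s : Sec I A.q := ∑ i, z.2 i • ϖ i with hs
  obtain ⟨u, h3, h4, h5, h6, h7⟩ := solve hF hA hc (x := z.1) (h := f + s.1) (hf.add s.2.1)
    (fun j => ML.add F.sm hf s.2.1 (hL j) (FL_sec j s))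
    (fun y => by rw [Pi.add_apply, map_add, hq, s.2.2.2]) (h2 ▸ hy.add (Is.toH s))
  refine ⟨u, z.2, ⟨h3.choose_spec.1, h5, fun x => ?_, fun j => ?_⟩, h3, h4, ?_,
    (norm_snd_le z).trans h1⟩
  · rw [h7, Pi.add_apply, hs, sec_sum, add_sub_cancel_right]
  · rw [← h6.inner_toH, ← rw0_apply]; exact congrFun (congrArg Prod.snd hz) j
  · rw [← h6.norm_zero]
    exact (norm_incl_le zero_le_one _).trans ((norm_fst_le z).trans h1)

theorem BB_un (hF : F.Tame C) (hA : A.Good F C') (hi : Injective (BB F ϖ θ (A.H F 0))) {u : M → V}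
    {a : Fin k → ℝ} (h : Sol F A ϖ θ 0 u a) (hL : FL F.toPre 1 u) : u = 0 ∧ a = 0 := by
  have := FiniteDimensional.complete ℝ V
  have := FiniteDimensional.complete ℝ W
  obtain ⟨x, hx⟩ := exists_Is (Exh.of_tame hF) h.sm hL h.pr
  have h1 : BB F ϖ θ (A.H F 0) (x, a) = 0 := by
    refine Prod.ext ?_ (funext fun j => ?_)
    · show TT F ϖ (A.H F 0) (x, a) = 0
      rw [TT_apply, col_eq]
      refine ((is_app hA hx h.sm).sub (Is.toH _)).unique (Is.zero.congr (Eventually.of_forall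
        fun y => ?_))
      rw [Pi.sub_apply, sec_sum, h.eq]
    · show rw0 F k A.p (θ j) (x, a) = 0
      rw [rw0_apply, hx.inner_toH]; exact h.row j
  have h2 := hi (h1.trans (map_zero _).symm)
  obtain rfl : x = 0 := congrArg Prod.fst h2
  exact ⟨ae_cont h.sm.continuous continuous_const (hx.symm.trans Is.zero), congrArg Prod.snd h2⟩

/-- **Unique solvability for all small weights.** -/
theorem core (hF : F.Tame C) (hA : A.Good F C') (hc : A.CliffL F) (ϖ : Fin k → Sec I A.q)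
    (hT : (A.H F 0).IsFredholm) (hs : Surjective (TT F ϖ (A.H F 0))) :
    ∃ (n : ℕ) (θ : Fin n → Sec I A.p × (Fin k → ℝ)), ∃ δ > 0, ∃ K > 0, ∀ φ t, Wg F φ →
      (∀ a x, |F.D a φ x| ≤ δ) → (∀ x, φ x ≠ t → (∀ i, (ϖ i).1 x = 0) ∧ ∀ j, (θ j).1.1 x = 0) →
      (∀ f, Sm I f → (∀ x, A.q x (f x) = f x) → Wf F φ f → ∃ u a, Sol F A ϖ θ f u a ∧ Wf F φ u ∧
        F.Cb (ew φ u) ∧ F.nrm 0 (ew φ u) ≤ K * F.nrm 0 (ew φ f) ∧
          exp t * ‖a‖ ≤ K * F.nrm 0 (ew φ f)) ∧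
      ∀ u a, Sol F A ϖ θ 0 u a → Wf F φ u → u = 0 ∧ a = 0 := by
  obtain ⟨n, θ, hB⟩ := rows ((Fred93.Fr.of hT).coprod (-col F ϖ)).1 hs (rw0 F k A.p) rw0_sep
  obtain ⟨η, hη, K, hK, h1⟩ := stab (T := BB F ϖ θ (A.H F 0)) hB
  obtain ⟨δ, hδ, h2⟩ := exists_small hA hη
  refine ⟨n, θ, δ, hδ, K, hK, fun φ t hφ hd ht => ?_⟩
  obtain ⟨h3, h4⟩ := h1 _ ((norm_BB ϖ θ _ _).trans (h2 φ hφ hd))
  obtain ⟨_, g⟩ := hφ.good hA
  refine ⟨fun f hf hq hL => ?_, fun u a h hL => ?_⟩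
  · obtain ⟨u, a, s1, s2, s3, s4, s5⟩ := BB_ex (A := cj F A φ) hF g hc h3.2 h4 (hφ.sm_ew hf) hL
      fun y => (map_smul (A.q y) _ _).trans (by rw [hq])
    have e : ew φ (ew (-φ) u) = u := funext fun x => by simp [ew, smul_smul, ← exp_add]
    have e' : exp t • exp (-t) • a = a := by simp [smul_smul, ← exp_add]
    refine ⟨ew (-φ) u, exp (-t) • a, (Sol.cj (u := ew (-φ) u) hφ ((sm_exp hφ.sm.neg).smul s1.sm) ht).1
      (by rw [e, e']; exact s1), fun j => by rw [e]; exact s3 j, by rw [e]; exact s2,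
      by rw [e]; exact s4, ?_⟩
    rwa [← Real.norm_of_nonneg (exp_pos t).le, ← norm_smul, e']
  · have e : ew φ (0 : M → W) = 0 := funext fun x => smul_zero _
    obtain ⟨s1, s2⟩ := BB_un (A := cj F A φ) hF g h3.1 (e ▸ (Sol.cj hφ h.sm ht).2 h) (hL 1)
    exact ⟨funext fun x => (smul_eq_zero.1 (congrFun s1 x)).resolve_left (exp_ne_zero _),
      (smul_eq_zero.1 s2).resolve_left (exp_ne_zero _)⟩

/-- **Surjectivity from the vanishing of the decaying cokernel.** -/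
theorem surj (hF : F.Tame C) (hA : A.Good F C') (hc : A.Cliff F) (ϖ : Fin k → Sec I A.q)
    (hT : (A.H F 0).IsFredholm) : ∃ δ > 0, ∀ φ, Wg F φ → (∀ a x, |F.D a φ x| ≤ δ) →
      (∀ x, φ x ≤ 0) → (∀ x, φ x ≠ 0 → ∀ i, (ϖ i).1 x = 0) →
      (∀ v, F.Cb v → (∀ x, A.q x (v x) = v x) → (A.adj F).app F (ew φ v) = 0 →
        (∀ i, F.ip 0 (ew φ v) (ϖ i).1 = 0) → ew φ v = 0) → Surjective (TT F ϖ (A.H F 0)) := by
  have := FiniteDimensional.complete ℝ V
  have := FiniteDimensional.complete ℝ W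
  obtain ⟨η, hη, h1⟩ := surj_near (T := TT F ϖ (A.H F 0)) ((Fred93.Fr.of hT).coprod (-col F ϖ)).1
  obtain ⟨δ, hδ, h2⟩ := exists_small hA hη
  refine ⟨δ, hδ, fun φ hφ hd h0 ht hv => ?_⟩
  obtain ⟨h3, h4⟩ := h1 _ ((norm_TT ϖ _ _).trans (h2 φ hφ hd))
  obtain ⟨_, g⟩ := hφ.good hA
  obtain ⟨_, g'⟩ := good_adj hF g
  obtain ⟨D, hD⟩ := hφ.cb_exp h0
  refine h4 (surj_of_orth h3 fun y hy => ?_) ((smulH F.toPre 1 A.p fun y => exp (φ y)).prodMap
    (ContinuousLinearMap.id ℝ _)) ((injective_iff_map_eq_zero _).2 fun z hz => ?_) fun z hz => ?_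
  · obtain ⟨x, rfl, hx⟩ := (par hF g (cliff_cj hc)).weak_ker (y := y) fun x => by
      have := hy (x, 0)
      rw [TT_apply, map_zero, sub_zero] at this
      exact this
    obtain ⟨v, s1, -, s3, s4, s5⟩ := solve hF g' hc.2 (x := x) (h := 0) contMDiff_const
      (fun j => FL_of_hcs j contMDiff_const HasCompactSupport.zero) (fun _ => map_zero _)
      (by rw [show ((cj F A φ).adj F).H F 0 x = 0 from hx]; exact Is.zero)
    have s6 := hv v s1 s3 (by
      rw [hφ.adj_ew hF hA s1.choose_spec.1, s5]; exact funext fun x => smul_zero _) fun i => by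
      rw [ip_ew (ϖ i) fun x e => ht x e i, ← s4.inner_toH, real_inner_comm]
      have := hy (0, Pi.single i 1)
      rw [TT_apply, col_eq, map_zero, zero_sub, inner_neg_left, neg_eq_zero] at this
      simp only [Pi.single_apply, ite_smul, one_smul, zero_smul, Finset.sum_ite_eq',
        Finset.mem_univ, if_true] at this
      exact mul_eq_zero_of_right _ this
    obtain rfl : v = 0 := funext fun x =>
      (smul_eq_zero.1 (congrFun s6 x)).resolve_left (exp_ne_zero _)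
    obtain rfl : x = 0 := s4.unique Is.zero
    exact map_zero _
  · have s0 := congrArg Prod.snd hz
    refine Prod.ext ?_ s0
    have s1 : Is F.toPre 1 A.p z.1 (F.toL2 1 A.p z.1) := EventuallyEq.rfl
    have s2 := s1.smulH ⟨D, hD⟩
    rw [show smulH F.toPre 1 A.p (fun y => exp (φ y)) z.1 = 0 from congrArg Prod.fst hz] at s2
    refine s1.unique (Is.zero.congr ?_)
    filter_upwards [s2.symm.trans Is.zero] with x hx
    exact ((smul_eq_zero.1 hx).resolve_left (exp_ne_zero _)).symm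
  · rw [TT_apply, sub_eq_zero, col_eq] at hz ⊢
    show (cj F A φ).H F 0 (smulH F.toPre 1 A.p (fun y => exp (φ y)) z.1) = F.toH 0 A.q
      (∑ i, z.2 i • ϖ i)
    rw [hφ.H_smul hA h0, hz, smulH_toH hD]
    refine congrArg _ (Subtype.ext (funext fun x => ?_))
    show exp (φ x) • (∑ i, z.2 i • ϖ i : Sec I A.q).1 x = _
    by_cases e : φ x = 0
    · rw [e, exp_zero, one_smul]
    · simp [ht x e]

end Crest.Agent.X212.Rinv39
end
end

-- ▼ part X212/Rinv39/Rd

/-! Row 212, RAD-RINV (helper39): radial weights and weighted norms. -/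

set_option autoImplicit false
set_option linter.unusedSectionVars false
noncomputable section
open scoped Manifold ContDiff Topology InnerProductSpace
open MeasureTheory Set Function Filter Real

namespace Crest.Agent.X212.Rinv39
open An Sob92 Ell97 Rad94 Ulc97
open Nd18 (BD fl fl_le fl_ge contDiff_fl bd_dfl)
open M (Mf)

/-! ### one variable -/

/-- zero below `R`, `τ - R` above `R + 1` -/
def rh (R τ : ℝ) : ℝ := τ - R - fl (τ - R)

section rh
variable {R τ : ℝ}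

theorem rh_zero (h : τ ≤ R) : rh R τ = 0 := by rw [rh, fl_le (by linarith), sub_self]

theorem rh_mem (R τ : ℝ) : 0 ≤ rh R τ ∧ rh R τ ≤ max (τ - R) 0 ∧ τ - R - 1 ≤ rh R τ := by
  have h0 : 0 ≤ rh R τ ∧ rh R τ ≤ max (τ - R) 0 := by
    rcases le_total τ R with h | h
    · rw [rh_zero h]; exact ⟨le_rfl, le_max_right _ _⟩
    · have e : rh R τ = (τ - R) * Real.smoothTransition (2 * (τ - R) - 1) := by rw [rh, fl]; ring
      have h1 := sub_nonneg.2 h
      rw [e]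
      exact ⟨mul_nonneg h1 (Real.smoothTransition.nonneg _),
        (mul_le_of_le_one_right h1 (Real.smoothTransition.le_one _)).trans (le_max_left _ _)⟩
  refine ⟨h0.1, h0.2, ?_⟩
  rcases le_total 1 (τ - R) with h | h
  · rw [rh, fl_ge h]; linarith
  · linarith [h0.1]

theorem sm_rh (R : ℝ) : ContDiff ℝ ∞ (rh R) :=
  (contDiff_id.sub contDiff_const).sub (contDiff_fl.comp (contDiff_id.sub contDiff_const))

theorem bd_rh : ∃ C, ∀ R, BD (deriv (rh R)) C := by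
  obtain ⟨C, hC⟩ := bd_dfl
  have e : ∀ R, deriv (rh R) = fun t => 1 + (-1) * deriv fl (t + -R) := fun R => funext fun t => by
    have h1 : HasDerivAt fl (deriv fl (t - R)) (t - R) :=
      (contDiff_fl.differentiable (by simp) _).hasDerivAt
    have h2 := ((hasDerivAt_id t).sub_const R).sub (h1.comp_sub_const t R)
    rw [show deriv (rh R) t = _ from h2.deriv, ← sub_eq_add_neg t]; ring
  exact ⟨_, fun R => e R ▸ (BD.const 1).add ((BD.const (-1)).mul (hC.shift (-R)))⟩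

end rh

theorem sum_exp {a : ℝ} (ha : 0 < a) :
    ∃ Z ≥ 0, ∀ m n : ℕ, ∑ i ∈ Finset.range n, exp (-a * |(i : ℝ) - m|) ≤ Z := by
  have h0 : Summable fun n : ℕ => exp (-a * n) := by
    simpa only [mul_comm] using summable_exp_nat_mul_iff.2 (neg_lt_zero.2 ha)
  have h1 : Summable fun z : ℤ => exp (-a * |(z : ℝ)|) :=
    Summable.of_nat_of_neg (by simpa using h0) (by simpa using h0)
  refine ⟨∑' z : ℤ, exp (-a * |(z : ℝ)|), tsum_nonneg fun z => (exp_pos _).le, fun m n => ?_⟩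
  have h2 := h1.sum_le_tsum ((Finset.range n).image fun i : ℕ => (i : ℤ) - m)
    fun _ _ => (exp_pos _).le
  rw [Finset.sum_image fun i _ j _ e => by omega] at h2
  simpa using h2

theorem one_dim {a : ℝ} (ha : 0 < a) : ∃ Z ≥ 0, ∀ (h : ℝ → ℝ) (m : ℕ) (b : ℝ), 0 ≤ b →
    ContinuousOn h (Ici 0) → (∀ t ≥ 0, 0 ≤ h t) →
    (∀ i : ℕ, ∫ t in Icc (i : ℝ) (i + 1), h t ≤ b * exp (-a * |(i : ℝ) - m|)) →
    IntegrableOn h (Ioi 0) ∧ ∫ t in Ioi 0, h t ≤ Z * b := by
  obtain ⟨Z, hZ, h1⟩ := sum_exp ha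
  refine ⟨Z, hZ, fun h m b hb hc h0 hi => ?_⟩
  have i1 : ∀ x y : ℝ, 0 ≤ x → x ≤ y → IntervalIntegrable h volume x y := fun x y hx hy =>
    (hc.mono (by rw [uIcc_of_le hy]; exact fun t ht => hx.trans ht.1)).intervalIntegrable
  have h2 : ∀ n : ℕ, ∫ t in (0 : ℝ)..n, h t ≤ Z * b := fun n => by
    have := intervalIntegral.sum_integral_adjacent_intervals (f := h) (μ := volume)
      (a := fun i : ℕ => (i : ℝ)) (n := n) fun i _ => i1 _ _ (Nat.cast_nonneg _) (by simp)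
    rw [Nat.cast_zero] at this
    rw [← this, mul_comm]
    refine (Finset.sum_le_sum fun i _ => ?_).trans ((Finset.mul_sum _ _ b).symm.trans_le
      (mul_le_mul_of_nonneg_left (h1 m n) hb))
    rw [Nat.cast_succ, intervalIntegral.integral_of_le (by simp), ← integral_Icc_eq_integral_Ioc]
    exact hi i
  have i2 : IntegrableOn h (Ioi 0) := integrableOn_Ioi_of_intervalIntegral_norm_bounded (Z * b) 0
    (fun n : ℕ => (i1 0 n le_rfl (Nat.cast_nonneg _)).1) tendsto_natCast_atTop_atTop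
    (Eventually.of_forall fun n => le_trans (le_of_eq (intervalIntegral.integral_congr fun t ht =>
      Real.norm_of_nonneg (h0 t (by rw [uIcc_of_le (Nat.cast_nonneg _)] at ht; exact ht.1))))
      (h2 n))
  exact ⟨i2, le_of_tendsto' (intervalIntegral_tendsto_integral_Ioi 0 i2
    tendsto_natCast_atTop_atTop) h2⟩

/-! ### weights -/

variable {κ lam A : Type} [Fintype κ] [Fintype lam] [Fintype A] {X : Mf 4}
  {N : Type} [NormedAddCommGroup N] [InnerProductSpace ℝ N] {g : Gm X κ lam A} {s : A}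
  {c : A → ℝ → ℝ} {t τ R R' : ℝ} {α β : A → ℝ} {f : X.M → N}

variable (g) in
/-- the weight of a constant and a radial function -/
def ph (t : ℝ) (c : A → ℝ → ℝ) (x : X.M) : ℝ := t + g.rd c x

/-- the radial functions -/
def cw (R R' : ℝ) (α β : A → ℝ) (s : A) (τ : ℝ) : ℝ := α s * rh R τ + β s * rh R' τ

theorem cw_zero (h : R ≤ R') (hτ : τ ≤ R) : cw R R' α β s τ = 0 := by
  simp [cw, rh_zero hτ, rh_zero (hτ.trans h)]

theorem rd_cw (h0 : 0 ≤ R) (h : R ≤ R') : Rd (cw R R' α β) := fun _ =>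
  ⟨(contDiff_const.mul (sm_rh R)).add (contDiff_const.mul (sm_rh R')),
    fun _ hτ => cw_zero h (hτ.trans h0)⟩

theorem deriv_cw : deriv (cw R R' α β s) =
    fun τ => α s * deriv (rh R) τ + β s * deriv (rh R') τ := funext fun τ =>
  ((((sm_rh R).differentiable (by simp) τ).hasDerivAt.const_mul _).add
    (((sm_rh R').differentiable (by simp) τ).hasDerivAt.const_mul _)).deriv

theorem ph_cor (h : R ≤ R') {x : X.M} (hx : x ∈ g.cor R) : ph g t (cw R R' α β) x = t := by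
  simp [ph, Gm.rd, fun s => cw_zero (α := α) (β := β) (s := s) h (hx s)]

theorem sm_ph (h : Rd c) : Sm X.I (ph g t c) := contMDiff_const.add (sm_rd h)

theorem D_ph (h : Rd c) (a : Option κ) : g.F.D a (ph g t c) = g.F.D a (g.rd c) := by
  rw [show ph g t c = (fun _ => t) + g.rd c from rfl, g.F.D_add contMDiff_const (sm_rd h),
    Pre.D_def, dv_const, zero_add]

theorem wg_cw (h0 : 0 ≤ R) (h : R ≤ R') : Wg g.F (ph g t (cw R R' α β)) := by
  obtain ⟨C, hC⟩ := bd_rh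
  have r := rd_cw (α := α) (β := β) h0 h
  refine ⟨sm_ph r, fun a => ?_⟩
  rw [D_ph r]
  cases a with
  | none =>
    rw [D_rd_none r]
    refine Cb_rd (Rd.deriv r _) fun s => ?_
    rw [deriv_cw]
    exact ⟨_, (BD.const _).mul (((BD.const _).mul (hC R)).add ((BD.const _).mul (hC R')))⟩
  | some a => rw [D_rd_some r]; exact Cb_const 0

variable (g) in
theorem exists_e {δ : ℝ} (hδ : 0 < δ) : ∃ e > 0, ∀ (R R' t : ℝ) (α β : A → ℝ), 0 ≤ R → R ≤ R' →
    (∀ s, |α s| + |β s| ≤ 3 * e) → ∀ a x, |g.F.D a (ph g t (cw R R' α β)) x| ≤ δ := by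
  obtain ⟨C, hC⟩ := bd_rh
  have c0 := (hC 0).nonneg 0
  have c1 : ∀ R τ, |deriv (rh R) τ| ≤ C 0 := fun R τ => by simpa using (hC R).2 0 0 le_rfl τ
  set b := Fintype.card A * (3 * C 0) + 1 with hb
  have b0 : 0 < b := by positivity
  refine ⟨δ / b, by positivity, fun R R' t α β h0 h he a x => ?_⟩
  have r := rd_cw (α := α) (β := β) h0 h
  rw [D_ph r]
  cases a with
  | some a => rw [D_rd_some r]; simpa using hδ.le
  | none =>
    rw [D_rd_none r, Gm.rd]
    refine (Finset.abs_sum_le_sum_abs _ _).trans ((Finset.sum_le_sum (g := fun _ => 3 * (δ / b) * C 0)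
      fun s _ => ?_).trans ?_)
    · rw [abs_mul, abs_sg, one_mul, deriv_cw]
      refine (abs_add_le _ _).trans (le_trans ?_ (mul_le_mul_of_nonneg_right (he s) c0))
      rw [abs_mul, abs_mul, add_mul]
      exact add_le_add (mul_le_mul_of_nonneg_left (c1 _ _) (abs_nonneg _))
        (mul_le_mul_of_nonneg_left (c1 _ _) (abs_nonneg _))
    · rw [Finset.sum_const, Finset.card_univ, nsmul_eq_mul, show Fintype.card A * (3 * (δ / b) * C 0) =
        δ * ((b - 1) / b) by rw [hb]; field_simp; ring]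
      exact mul_le_of_le_one_right hδ.le ((div_le_one b0).2 (by linarith))

variable (g) in
theorem exists_R {K : Set X.M} (hK : IsCompact K) : ∃ R, 1 ≤ R ∧ K ⊆ g.cor R := by
  choose b hb using fun s => hK.exists_bound_of_continuousOn (cont_ht g s).continuousOn
  have h0 : 0 ≤ ∑ s, |b s| := Finset.sum_nonneg fun _ _ => abs_nonneg _
  refine ⟨1 + ∑ s, |b s|, by linarith, fun x hx s => ?_⟩
  have h1 := Finset.single_le_sum (f := fun s => |b s|) (fun _ _ => abs_nonneg _) (Finset.mem_univ s)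
  linarith [le_abs_self (b s), le_abs_self (g.ht s x), show |g.ht s x| ≤ b s from hb s x hx]

/-! ### weighted norms -/

theorem sq_ew (φ : X.M → ℝ) (f : X.M → N) (x : X.M) :
    ‖ew φ f x‖ ^ 2 = exp (2 * φ x) * ‖f x‖ ^ 2 := by
  rw [norm_smul, mul_pow, Real.norm_of_nonneg (exp_pos _).le, two_mul, exp_add, sq]

theorem n2_ew (hg : g.OK) (h : Rd c) (hτ : -1 < τ) :
    g.n2 s (ew (ph g t c) f) τ = exp (2 * (t + c s τ)) * g.n2 s f τ := by
  simp only [Gm.n2, sq_ew, ph, rd_pt hg h hτ, integral_const_mul]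

theorem cont_sq (hf : Continuous f) : Continuous fun x => ‖f x‖ ^ 2 := hf.norm.pow 2

theorem cont_n2 (hf : Continuous f) : ContinuousOn (g.n2 s f) (Ioi (-1)) := contOn_sl (cont_sq hf)

theorem int_n2 (hf : Continuous f) (h : -1 < τ) (b : ℝ) : IntegrableOn (g.n2 s f) (Icc τ b) :=
  intOn_sl h (cont_sq hf) b

theorem cont_ew (h : Rd c) (hf : Continuous f) : Continuous (ew (ph g t c) f) :=
  (sm_ph h).continuous.rexp.smul hf

theorem memLp_iff (hg : g.OK) (hf : Continuous f) :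
    MemLp f 2 g.F.μ ↔ ∀ s, IntegrableOn (g.n2 s f) (Ioi 0) := by
  rw [memLp_two_iff_integrable_sq_norm hf.aestronglyMeasurable,
    integrable_iff hg (T := 0) (by norm_num) (cont_sq hf)]
  simp only [n2_eq, norm_pow, norm_norm]

theorem nrm_sq_eq (hg : g.OK) (hf : Continuous f) (hL : MemLp f 2 g.F.μ) :
    g.F.nrm 0 f ^ 2 = g.q0 f + ∑ s, ∫ τ in Ioi 0, g.n2 s f τ := by
  rw [nrm_sq]
  exact int_all hg (T := 0) (by norm_num) (cont_sq hf) (int_sq hL)

theorem q0_ew (h : Rd c) : g.q0 (ew (ph g t c) f) = exp (2 * t) * g.q0 f := by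
  rw [Gm.q0, Gm.q0, ← integral_const_mul]
  exact setIntegral_congr_fun (isClosed_cor g 0).measurableSet fun x hx => by
    simp only [sq_ew, ph, rd_cor h hx, add_zero]

theorem nS_sq (S : Set X.M) (f : X.M → N) : nS g.F.toPre S 0 f ^ 2 = ∫ x in S, ‖f x‖ ^ 2 ∂g.F.μ :=
  Real.sq_sqrt (n2_nonneg 0 f)

theorem ul_nn {k : ℕ} {r : ℝ} (h : g.Ul k f r) : 0 ≤ r := (nS_nonneg f).trans h.1

variable (g) in
/-- **Uniformly local bounds give weighted bounds.** -/
theorem ul_wt (hg : g.OK) {e : ℝ} (he : 0 < e) (K : ℝ) : ∃ Z ≥ 0, ∀ (c : A → ℝ → ℝ) (t : ℝ)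
    (m : A → ℕ), Rd c → t ≤ K → (∀ s τ, 0 ≤ τ → t + c s τ ≤ K - e * |τ - m s|) →
    ∀ (f : X.M → N) r, Continuous f → g.Ul 0 f r →
      MemLp (ew (ph g t c) f) 2 g.F.μ ∧ g.F.nrm 0 (ew (ph g t c) f) ≤ Z * r := by
  obtain ⟨Z, hZ, h1⟩ := one_dim (mul_pos two_pos he)
  set b := exp (2 * K) + Fintype.card A * (Z * exp (2 * K + 2 * e)) with hb
  have b0 : 0 ≤ b := by positivity
  refine ⟨√b, sqrt_nonneg _, fun c t m hc ht hm f r hf hr => ?_⟩
  have cf := cont_ew (g := g) (t := t) hc hf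
  have h2 := fun s => h1 (g.n2 s (ew (ph g t c) f)) (m s) (exp (2 * K + 2 * e) * r ^ 2)
    (by positivity) ((cont_n2 cf).mono fun x hx => mem_Ioi.2 (neg_one_lt_zero.trans_le hx))
    (fun τ _ => n2_nn _ τ) fun i => by
      have i0 : (0 : ℝ) ≤ i := Nat.cast_nonneg i
      have i1 : (-1 : ℝ) < i := by linarith
      have a1 : ∫ τ in Icc (i : ℝ) (i + 1), g.n2 s f τ ≤ r ^ 2 := by
        rw [n2_eq, ← int_Icc i1 (cont_sq hf), ← nS_sq]
        exact pow_le_pow_left₀ (nS_nonneg f) (hr.2 s i i0) 2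
      refine le_trans ?_ ((mul_le_mul_of_nonneg_left a1 (exp_pos
        (2 * K + 2 * e + -(2 * e) * |(i : ℝ) - m s|)).le).trans_eq (by rw [exp_add _ (_ * _)]; ring))
      rw [← integral_const_mul]
      refine setIntegral_mono_on (int_n2 cf i1 _) ((int_n2 hf i1 _).const_mul _)
        measurableSet_Icc fun τ hτ => ?_
      rw [n2_ew hg hc (i1.trans_le hτ.1)]
      refine mul_le_mul_of_nonneg_right (exp_le_exp.2 ?_) (n2_nn _ _)
      have a2 := hm s τ (i0.trans hτ.1)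
      have a3 : |(i : ℝ) - m s| ≤ |τ - m s| + 1 := by
        have := abs_sub_le (i : ℝ) τ (m s)
        have : |(i : ℝ) - τ| ≤ 1 := abs_le.2 ⟨by linarith [hτ.2], by linarith [hτ.1]⟩
        linarith
      nlinarith
  have h3 := (memLp_iff hg cf).2 fun s => (h2 s).1
  refine ⟨h3, abs_le_of_sq_le_sq' ?_ (mul_nonneg (sqrt_nonneg _) (ul_nn hr)) |>.2⟩
  have h4 : g.q0 f ≤ r ^ 2 := by
    refine le_trans ?_ (pow_le_pow_left₀ (nS_nonneg f) hr.1 2)
    rw [nS_sq]
    exact setIntegral_mono_set ((cont_sq hf).continuousOn.integrableOn_compact (hg.cpt 1))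
      (Eventually.of_forall fun _ => sq_nonneg _) (cor_mono zero_le_one).eventuallyLE
  have h5 : 0 ≤ g.q0 f := integral_nonneg fun _ => sq_nonneg _
  rw [nrm_sq_eq hg cf h3, q0_ew hc, mul_pow, sq_sqrt b0, hb, add_mul]
  refine add_le_add (mul_le_mul (exp_le_exp.2 (by linarith)) h4 h5 (exp_pos _).le)
    ((Finset.sum_le_sum fun s _ => (h2 s).2).trans_eq ?_)
  rw [Finset.sum_const, Finset.card_univ, nsmul_eq_mul]; ring

/-- local norms from weighted norms -/
theorem nS_le {φ : X.M → ℝ} {S : Set X.M} (hS : MeasurableSet S) {b : ℝ} (hb : ∀ x ∈ S, -b ≤ φ x)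
    (hL : MemLp (ew φ f) 2 g.F.μ) : nS g.F.toPre S 0 f ≤ exp b * g.F.nrm 0 (ew φ f) := by
  refine (abs_le_of_sq_le_sq' ?_ (mul_nonneg (exp_pos _).le (nrm_nonneg _ _))).2
  rw [nS_sq, mul_pow, nrm_sq]
  refine le_trans ?_ (mul_le_mul_of_nonneg_left (setIntegral_le_integral (s := S) (int_sq hL)
    (Eventually.of_forall fun _ => sq_nonneg _)) (sq_nonneg _))
  rw [← integral_const_mul]
  refine integral_mono_of_nonneg (Eventually.of_forall fun _ => sq_nonneg _)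
    ((int_sq hL).integrableOn.const_mul _) ((ae_restrict_mem hS).mono fun x hx => ?_)
  show _ ≤ exp b ^ 2 * ‖ew φ f x‖ ^ 2
  rw [sq_ew, ← mul_assoc, sq (exp b), ← exp_add, ← exp_add]
  exact le_mul_of_one_le_left (sq_nonneg _) (one_le_exp (by linarith [hb x hx]))

theorem Q_le (hg : g.OK) (h : Rd c) {e : ℝ} (hc : ∀ s τ, 0 ≤ τ → -e * τ ≤ c s τ)
    (hf : Continuous f) (hL : MemLp (ew (ph g 0 c) f) 2 g.F.μ) :
    g.Q (fun _ => e) f ≤ g.F.nrm 0 (ew (ph g 0 c) f) ^ 2 := by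
  rw [nrm_sq_eq hg (cont_ew h hf) hL, q0_ew h, mul_zero, exp_zero, one_mul]
  refine add_le_add le_rfl (Finset.sum_le_sum fun s _ => integral_mono_of_nonneg
    (Eventually.of_forall fun τ => mul_nonneg (n2_nn _ _) (exp_pos _).le)
    ((memLp_iff hg (cont_ew h hf)).1 hL s) ((ae_restrict_mem measurableSet_Ioi).mono fun τ hτ => ?_))
  show g.n2 s f τ * _ ≤ _
  rw [n2_ew hg h (lt_trans (by norm_num) hτ), mul_comm]
  exact mul_le_mul_of_nonneg_right (exp_le_exp.2 (by linarith [hc s τ (le_of_lt hτ)])) (n2_nn _ _)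

theorem le_Q (hg : g.OK) (h : Rd c) {e K : ℝ} (K0 : 0 ≤ K) (hc : ∀ s τ, 0 ≤ τ → c s τ ≤ K - e * τ)
    (hf : Continuous f) (hL : MemLp (ew (ph g 0 c) f) 2 g.F.μ) (hi : g.Fi (fun _ => e) f) :
    g.F.nrm 0 (ew (ph g 0 c) f) ^ 2 ≤ exp (2 * K) * g.Q (fun _ => e) f := by
  rw [nrm_sq_eq hg (cont_ew h hf) hL, q0_ew h, Gm.Q, mul_add, Finset.mul_sum]
  refine add_le_add (mul_le_mul_of_nonneg_right (exp_le_exp.2 (by linarith))
    (integral_nonneg fun _ => sq_nonneg _)) (Finset.sum_le_sum fun s _ => ?_)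
  rw [← integral_const_mul]
  refine integral_mono_of_nonneg (Eventually.of_forall fun τ => n2_nn _ _) ((hi s).const_mul _)
    ((ae_restrict_mem measurableSet_Ioi).mono fun τ hτ => ?_)
  show _ ≤ exp (2 * K) * (g.n2 s f τ * _)
  rw [n2_ew hg h (lt_trans (by norm_num) hτ), mul_comm (g.n2 s f τ), ← mul_assoc, ← exp_add]
  exact mul_le_mul_of_nonneg_right (exp_le_exp.2 (by linarith [hc s τ (le_of_lt hτ)])) (n2_nn _ _)

/-- a square integrable function for a growing weight decays -/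
theorem fi_of (hg : g.OK) (h : Rd c) {c' : A → ℝ → ℝ} (h' : Rd c') {e K : ℝ}
    (hc : ∀ s τ, 0 ≤ τ → c s τ + e * τ ≤ K + c' s τ) (hf : Continuous f)
    (hL : MemLp (ew (ph g 0 c') f) 2 g.F.μ) : g.Fi (fun _ => -e) (ew (ph g 0 c) f) := fun s => by
  refine Integrable.mono' (((memLp_iff hg (cont_ew h' hf)).1 hL s).const_mul (exp (2 * K)))
    (ContinuousOn.aestronglyMeasurable (((cont_n2 (cont_ew h hf)).mono
      (Ioi_subset_Ioi (by norm_num))).mul (by fun_prop)) measurableSet_Ioi)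
    ((ae_restrict_mem measurableSet_Ioi).mono fun τ hτ => ?_)
  have h1 : -1 < τ := lt_trans (by norm_num) hτ
  rw [Real.norm_of_nonneg (mul_nonneg (n2_nn _ _) (exp_pos _).le), n2_ew hg h h1, n2_ew hg h' h1,
    mul_right_comm, ← mul_assoc, ← exp_add, ← exp_add]
  exact mul_le_mul_of_nonneg_right (exp_le_exp.2 (by linarith [hc s τ (le_of_lt hτ)])) (n2_nn _ _)

end Crest.Agent.X212.Rinv39
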